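import Vale.Agent.P095.CharMain

/-!
# Equivariant Jiang–Su stability and characters of the fixed-point central sequence algebra

Let `A` be a nonzero unital separable C⋆-algebra, neither simplicity nor nuclearity assumed, `α` an
action of a countable group `G` on `A` and `ω` a free ultrafilter on `ℕ`.

1. `α` is equivariantly `𝒵`-stable if and only if the fixed-point algebra `F_ω(A)^α` of the central
   sequence algebra has no characters.
2. If every finite subset of `G` lies in a subgroup `L` which has a subgroup `H` of finite index
   such that the restriction of `α` to `H` is equivariantly `𝒵`-stable, then so is `α`.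
3. If `A` is `𝒵`-stable and every finite subset of `G` lies in a subgroup `L` which has a
   subgroup of finite index acting by inner automorphisms, then `α` is equivariantly `𝒵`-stable.
   In particular this holds for every action of a locally finite group.
-/

universe u v

open Vale.Agent.P101 Vale.Agent.P095

theorem Vale.Agent.Results.P095.Characterization.result
    (A Z : Type u) [CStarAlgebra A] [Nontrivial A] [TopologicalSpace.SeparableSpace A]
    [CStarAlgebra Z] (hZ : IsJiangSu Z) (hs : IsStronglySelfAbsorbing Z)
    (G : Type v) [Group G] [Countable G] (α : Action G A)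
    (ω : Ultrafilter ℕ) (hω : (ω : Filter ℕ) ≤ Filter.cofinite) :
    (EquivariantlyStable α Z ↔ NoInvCharacters α ω) ∧
    ((∀ K : Finset G, ∃ (L : Subgroup G) (H : Subgroup L), (K : Set G) ⊆ L ∧ H.FiniteIndex ∧
        EquivariantlyStable (α.comp (L.subtype.comp H.subtype)) Z) →
      EquivariantlyStable α Z) ∧
    (TensorAbsorbs A Z →
      (∀ K : Finset G, ∃ (L : Subgroup G) (H : Subgroup L), (K : Set G) ⊆ L ∧ H.FiniteIndex ∧
        ∀ g ∈ H, ∃ w ∈ unitary A, ∀ a, α g a = w * a * star w) →
      EquivariantlyStable α Z) :=
  char_all hZ hs α hω
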