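import Vale.Agent.P095.Main

/-!
# Equivariant Jiang–Su stability for actions of locally finite groups

Every action of a countable locally finite group (in particular of a finite group) on a nonzero
unital separable `𝒵`-stable C⋆-algebra `A` is cocycle conjugate to `α ⊗ id` on `A ⊗ 𝒵`. The
algebra `A` need neither be simple nor nuclear.
-/

universe u v

namespace Vale.Agent.Results.P095.LocallyFinite

open Vale.Agent.P101 Vale.Agent.P095

theorem result (A Z : Type u) [CStarAlgebra A] [Nontrivial A] [TopologicalSpace.SeparableSpace A]
    [CStarAlgebra Z] (hZ : IsJiangSu Z) (hssa : IsStronglySelfAbsorbing Z)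
    (hA : TensorAbsorbs A Z) (G : Type v) [Group G] [Countable G]
    (hG : ∀ K : Finset G, (Subgroup.closure (K : Set G) : Set G).Finite) (α : Action G A) :
    EquivariantlyStable α Z :=
  main A Z hZ hssa.isSSA hA G hG α

end Vale.Agent.Results.P095.LocallyFinite
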