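import Vale.Agent.P095.Perm

/-!
# Equivariant Jiang–Su stability: permanence, and actions locally finite modulo inner ones

Let `A` be a nonzero unital separable C⋆-algebra, neither simplicity nor nuclearity assumed, and
`α` an action of a countable group `G`.

1. If `A` is `𝒵`-stable and every finite subset of `G` lies in a subgroup `L` which has a
   subgroup of finite index acting by inner automorphisms, then `α` is equivariantly `𝒵`-stable.
   In particular this holds for every action of a locally finite group.
2. If every finite subset of `G` lies in a subgroup `L` which has a subgroup `H` of finite index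
   such that the restriction of `α` to `H` is equivariantly `𝒵`-stable, then so is `α`.
-/

universe u v

namespace Vale.Agent.Results.P095.Permanence

open Vale.Agent.P101 Vale.Agent.P095

theorem result (A Z : Type u) [CStarAlgebra A] [Nontrivial A] [TopologicalSpace.SeparableSpace A]
    [CStarAlgebra Z] (hZ : IsJiangSu Z) (hssa : IsStronglySelfAbsorbing Z)
    (G : Type v) [Group G] [Countable G] (α : Action G A) :
    (TensorAbsorbs A Z →
      (∀ K : Finset G, ∃ (L : Subgroup G) (H : Subgroup L), (K : Set G) ⊆ L ∧ H.FiniteIndex ∧
        ∀ g ∈ H, ∃ w ∈ unitary A, ∀ a, α g a = w * a * star w) →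
      EquivariantlyStable α Z) ∧
    ((∀ K : Finset G, ∃ (L : Subgroup G) (H : Subgroup L), (K : Set G) ⊆ L ∧ H.FiniteIndex ∧
        EquivariantlyStable (α.comp (L.subtype.comp H.subtype)) Z) →
      EquivariantlyStable α Z) :=
  ⟨fun hA h => stable_of_inner A Z hZ hssa.isSSA G α hA h,
    fun h => stable_of_finiteIndex A Z hZ hssa.isSSA G α h⟩

end Vale.Agent.Results.P095.Permanence
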